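import Vale.Agent.Lib.P002.G1Defs

/-!
# P002, pool job G1-C: leading minors and the genericity polynomial under diagonal scaling
-/

namespace Vale.Agent.Lib.P002.H22

open Matrix
open Vale.Agent.Lib.P002

/-- A submatrix of a two-sided diagonal scaling is the scaling of the submatrix. -/
theorem diag_mul_submatrix {S : Type*} [CommRing S] {k : ℕ} (g : Fin k → Fin (k + 1))
    (d e : Fin (k + 1) → S) (M : Matrix (Fin (k + 1)) (Fin (k + 1)) S) :
    (Matrix.diagonal d * M * Matrix.diagonal e).submatrix g g =
      Matrix.diagonal (fun j => d (g j)) * M.submatrix g g *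
        Matrix.diagonal (fun j => e (g j)) := by
  ext i j
  rw [Matrix.submatrix_apply, Matrix.mul_diagonal, Matrix.diagonal_mul, Matrix.mul_diagonal,
    Matrix.diagonal_mul, Matrix.submatrix_apply]

theorem lead_diag_mul {S : Type*} [CommRing S] : ∀ (k t : ℕ) (d e : Fin k → S)
    (M : Matrix (Fin k) (Fin k) S),
    lead t k (Matrix.diagonal d * M * Matrix.diagonal e) =
      (∏ j : Fin k, if j.val < t then d j * e j else 1) * lead t k M := by
  intro k
  induction k with
  | zero =>
    intro t d e M
    rw [lead_zero_size, lead_zero_size, Fin.prod_univ_zero, one_mul]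
  | succ k ih =>
    intro t d e M
    rw [lead_succ, lead_succ]
    by_cases h : k + 1 ≤ t
    · rw [if_pos h, if_pos h, Matrix.det_mul, Matrix.det_mul, Matrix.det_diagonal,
        Matrix.det_diagonal]
      have hall : ∀ j : Fin (k + 1), (if j.val < t then d j * e j else 1) = d j * e j :=
        fun j => if_pos (lt_of_lt_of_le j.isLt h)
      rw [Finset.prod_congr rfl (fun j _ => hall j), Finset.prod_mul_distrib]
      ring
    · have hlast : ¬ (Fin.last k).val < t := by
        rw [Fin.val_last]
        omega
      have hprod : (∏ j : Fin (k + 1), if j.val < t then d j * e j else 1)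
          = ∏ j : Fin k, if j.val < t then d (Fin.castSucc j) * e (Fin.castSucc j) else 1 := by
        rw [Fin.prod_univ_castSucc, if_neg hlast, mul_one]
        rfl
      rw [if_neg h, if_neg h, diag_mul_submatrix, ih, hprod]

/-- The scaling factors are nonzero. -/
theorem prod_ite_ne_zero {n : ℕ} (s : ℕ) (a b : Fin n → ℂ) (ha : ∀ i, a i ≠ 0)
    (hb : ∀ i, b i ≠ 0) : (∏ j : Fin n, if j.val < s then a j * b j else 1) ≠ 0 := by
  rw [Finset.prod_ne_zero_iff]
  intro j _
  by_cases h : j.val < s
  · rw [if_pos h]
    exact mul_ne_zero (ha j) (hb j)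
  · rw [if_neg h]
    exact one_ne_zero

/-- Splitting off the first factor of a scaling factor. -/
theorem prod_ite_succ {k : ℕ} (s : ℕ) (d e : Fin (k + 1) → ℂ) :
    (∏ j : Fin (k + 1), if j.val < s + 1 then d j * e j else 1) =
      d 0 * e 0 * ∏ j : Fin k, if j.val < s then d j.succ * e j.succ else 1 := by
  rw [Fin.prod_univ_succ, if_pos (by rw [Fin.val_zero]; omega)]
  congr 1
  refine Finset.prod_congr rfl (fun j _ => ?_)
  rw [Fin.val_succ]
  by_cases hj : j.val < s
  · rw [if_pos hj, if_pos (by omega)]
  · rw [if_neg hj, if_neg (by omega)]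

theorem g1Gen_diag_ne_zero : ∀ (k : ℕ) (d e : Fin k → ℂ) (M : Matrix (Fin k) (Fin k) ℂ),
    (∀ i, d i ≠ 0) → (∀ i, e i ≠ 0) → g1Gen k M ≠ 0 →
    g1Gen k (Matrix.diagonal d * M * Matrix.diagonal e) ≠ 0 := by
  intro k
  induction k with
  | zero =>
    intro d e M _ _ _
    rw [g1Gen_zero]
    exact one_ne_zero
  | succ k ih =>
    intro d e M hd he hM
    rw [g1Gen_succ] at hM ⊢
    have hA := left_ne_zero_of_mul (left_ne_zero_of_mul hM)
    have hB := right_ne_zero_of_mul (left_ne_zero_of_mul hM)
    have hC := right_ne_zero_of_mul hM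
    rw [Finset.prod_ne_zero_iff] at hA hB
    rw [diag_mul_submatrix]
    refine mul_ne_zero (mul_ne_zero ?_ ?_) ?_
    · rw [Finset.prod_ne_zero_iff]
      intro t ht
      rw [lead_diag_mul]
      exact mul_ne_zero (prod_ite_ne_zero (t + 1) d e hd he) (hA t ht)
    · rw [Finset.prod_ne_zero_iff]
      intro i hi
      have hBi := hB i hi
      have e2 : (∏ j : Fin (k + 1), if j.val < i + 2 then d j * e j else 1) =
          d 0 * e 0 * ∏ j : Fin k, if j.val < i + 1 then d j.succ * e j.succ else 1 :=
        prod_ite_succ (i + 1) d e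
      have key : ∀ (f0 g0 g1 l1 l1' l2 l0' : ℂ),
          (f0 * g0 * l1) * (g1 * l1') - (f0 * g1 * l2) * (g0 * l0') =
            (f0 * g0 * g1) * (l1 * l1' - l2 * l0') := by
        intros
        ring
      rw [lead_diag_mul, lead_diag_mul, lead_diag_mul, lead_diag_mul, prod_ite_succ i d e, e2,
        key]
      exact mul_ne_zero (mul_ne_zero (mul_ne_zero (mul_ne_zero (hd 0) (he 0))
        (prod_ite_ne_zero i (fun j => d j.succ) (fun j => e j.succ)
          (fun j => hd j.succ) (fun j => he j.succ)))
        (prod_ite_ne_zero (i + 1) (fun j => d j.succ) (fun j => e j.succ)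
          (fun j => hd j.succ) (fun j => he j.succ))) hBi
    · exact ih _ _ _ (fun i => hd i.succ) (fun i => he i.succ) hC

end Vale.Agent.Lib.P002.H22
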